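import Vale.Agent.P083.Final
import Vale.Agent.P083.AtH

/-!
# P083: unital embeddability into `O_2^ω` passes to full free products
-/

namespace Vale.Agent.Results.P083.FreeProducts

open Vale.Agent.P083 TopologicalSpace

/-- If the separable unital C*-algebras `A` and `B` embed unitally into the norm ultrapower of `O_2`,
then so does every unital full free product `C` of `A` and `B`. -/
theorem result (ω : Ultrafilter ℕ) (hω : (ω : Filter ℕ) ≤ Filter.cofinite)
    (A B C : Type) [CStarAlgebra A] [CStarAlgebra B] [CStarAlgebra C]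
    [SeparableSpace A] [SeparableSpace B]
    (i : A →⋆ₐ[ℂ] C) (j : B →⋆ₐ[ℂ] C) (hfree : IsFreeProduct i j)
    (hA : EmbedsO2 ω A) (hB : EmbedsO2 ω B) : EmbedsO2 ω C := by
  rw [Nat.cofinite_eq_atTop] at hω
  exact embedsO2_iff.2 (embedsL_of_embeds (main hω i j hfree
    (embeds_of_embedsL (embedsO2_iff.1 hA)) (embeds_of_embedsL (embedsO2_iff.1 hB))))

end Vale.Agent.Results.P083.FreeProducts
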